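import Mathlib

/-!
# P243: Bang's plank theorem, with measurable sets in place of intervals

A compact convex set of width at least `w` in every direction which is covered by finitely many
sets `{x | ⟪v i, x⟫ ∈ T i}` with unit `v i` has `w ≤ ∑ i, volume (T i)`.
-/

namespace Vale.Agent.P243.Coplanar

open MeasureTheory Set Metric
open scoped RealInnerProductSpace ENNReal

noncomputable section

variable {V : Type} [NormedAddCommGroup V] [InnerProductSpace ℝ V]

/-- The set has width at least `w` in every direction. -/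
def Wide (S : Set V) (w : ℝ) : Prop := ∀ n : V, ∃ x ∈ S, ∃ y ∈ S, w * ‖n‖ ≤ ⟪n, x - y⟫

lemma Wide.nonempty {S : Set V} {w : ℝ} (h : Wide S w) : S.Nonempty := by
  obtain ⟨x, hx, -⟩ := h 0
  exact ⟨x, hx⟩

lemma exists_chord [CompleteSpace V] {S : Set V} (hS : IsCompact S) (hc : Convex ℝ S) {w : ℝ}
    (h : Wide S w) (hw : 0 < w) {a : V} (ha : ‖a‖ = 1) : ∃ q ∈ S, q + w • a ∈ S := by
  by_contra hcon
  push Not at hcon
  set T : Set V := (fun x => w • a + x) '' S with hT
  have hTc : IsCompact T := hS.image (by fun_prop)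
  have hdisj : Disjoint S T := by
    rw [Set.disjoint_left]
    rintro x hx ⟨y, hy, rfl⟩
    exact hcon y hy (by rwa [add_comm])
  obtain ⟨f, r, s, hfr, hrs, hfs⟩ :=
    geometric_hahn_banach_compact_closed hc hS (hc.translate (w • a)) hTc.isClosed hdisj
  set n : V := (InnerProductSpace.toDual ℝ V).symm f with hn
  have hf : ∀ x, f x = ⟪n, x⟫ := fun x => by
    rw [hn, InnerProductSpace.toDual_symm_apply]
  obtain ⟨x, hx, y, hy, hxy⟩ := h n
  have h1 := hfr x hx
  have h2 := hfs (w • a + y) ⟨y, hy, rfl⟩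
  rw [hf] at h1 h2
  rw [inner_add_right, real_inner_smul_right] at h2
  rw [inner_sub_right] at hxy
  have h3 : ⟪n, a⟫ ≤ ‖n‖ := by
    simpa [ha] using real_inner_le_norm n a
  nlinarith [mul_le_mul_of_nonneg_left h3 hw.le]

lemma wide_shrink [CompleteSpace V] {S : Set V} (hS : IsCompact S) (hc : Convex ℝ S) {w c : ℝ}
    (h : Wide S w) (hw : 0 < w) (hc0 : 0 ≤ c) (hcw : c ≤ w) {a : V} (ha : ‖a‖ = 1) :
    ∃ S' : Set V, IsCompact S' ∧ Convex ℝ S' ∧ Wide S' (w - c) ∧
      ∀ z ∈ S', z ∈ S ∧ z + c • a ∈ S := by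
  obtain ⟨q, hq, hqa⟩ := exists_chord hS hc h hw ha
  set l := c / w with hl
  have hl0 : 0 ≤ l := div_nonneg hc0 hw.le
  have hl1 : l ≤ 1 := (div_le_one hw).2 hcw
  have hlw : l * w = c := div_mul_cancel₀ _ hw.ne'
  refine ⟨(fun s => l • q + (1 - l) • s) '' S, hS.image (by fun_prop), ?_, fun n => ?_, ?_⟩
  · rintro - ⟨x, hx, rfl⟩ - ⟨y, hy, rfl⟩ α β hα hβ hαβ
    refine ⟨α • x + β • y, hc hx hy hα hβ hαβ, ?_⟩
    obtain rfl : β = 1 - α := by linarith
    module
  · obtain ⟨x, hx, y, hy, hxy⟩ := h n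
    refine ⟨_, ⟨x, hx, rfl⟩, _, ⟨y, hy, rfl⟩, ?_⟩
    simp only
    rw [add_sub_add_left_eq_sub, ← smul_sub, real_inner_smul_right, ← hlw]
    nlinarith [mul_le_mul_of_nonneg_left hxy (sub_nonneg.2 hl1)]
  · rintro - ⟨x, hx, rfl⟩
    refine ⟨hc hq hx hl0 (sub_nonneg.2 hl1) (by ring), ?_⟩
    have := hc hqa hx hl0 (sub_nonneg.2 hl1) (by ring)
    convert this using 1
    rw [← hlw]
    module

lemma exists_center [CompleteSpace V] :
    ∀ (k : ℕ) (v : Fin k → V) (δ : Fin k → ℝ), (∀ i, ‖v i‖ = 1) → (∀ i, 0 ≤ δ i) →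
      ∀ (S : Set V) (w : ℝ), IsCompact S → Convex ℝ S → Wide S w → 0 < w → 2 * ∑ i, δ i < w →
        ∃ p, ∀ σ : Fin k → Bool, p + ∑ i, ((if σ i then δ i else -δ i) • v i) ∈ S
  | 0, v, δ, _, _, S, w, _, _, hW, _, _ => by
    obtain ⟨p, hp⟩ := hW.nonempty
    exact ⟨p, fun σ => by simpa using hp⟩
  | k + 1, v, δ, hv, hδ, S, w, hS, hc, hW, hw, hsum => by
    rw [Fin.sum_univ_succ] at hsum
    have hrest : 0 ≤ ∑ i : Fin k, δ i.succ := Finset.sum_nonneg fun i _ => hδ _
    obtain ⟨S', hS', hc', hW', hmem⟩ := wide_shrink hS hc hW hw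
      (c := 2 * δ 0) (by have := hδ 0; linarith) (by linarith) (hv 0)
    obtain ⟨p, hp⟩ := exists_center k (fun i => v i.succ) (fun i => δ i.succ) (fun i => hv _)
      (fun i => hδ _) S' (w - 2 * δ 0) hS' hc' hW' (by linarith) (by linarith)
    refine ⟨p + δ 0 • v 0, fun σ => ?_⟩
    obtain ⟨h1, h2⟩ := hmem _ (hp fun i => σ i.succ)
    rw [Fin.sum_univ_succ]
    cases h : σ 0
    · convert h1 using 1
      simp only [Bool.false_eq_true, if_false]
      module
    · convert h2 using 1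
      simp only [if_true]
      module

/-- Bang's theorem for planks. -/
theorem plank_bound [CompleteSpace V] {ι : Type} [Fintype ι] {S : Set V} (hS : IsCompact S)
    (hc : Convex ℝ S) {w : ℝ} (hW : Wide S w) (v : ι → V) (hv : ∀ i, ‖v i‖ = 1) (c h : ι → ℝ)
    (hh : ∀ i, 0 ≤ h i) (hcov : ∀ x ∈ S, ∃ i, |⟪v i, x⟫ - c i| ≤ h i / 2) :
    w ≤ ∑ i, h i := by
  classical
  by_contra hcon
  push Not at hcon
  let e := Fintype.equivFin ι
  set k := Fintype.card ι with hk
  set η := (w - ∑ i, h i) / (4 * (k + 1)) with hηdef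
  have hη : 0 < η := div_pos (by linarith) (by positivity)
  set δ : Fin k → ℝ := fun j => h (e.symm j) / 2 + η with hδdef
  have hδpos : ∀ j, 0 < δ j := fun j => by
    have := hh (e.symm j)
    simp only [hδdef]; linarith
  have hsum : 2 * ∑ j, δ j < w := by
    have h1 : ∑ j, h (e.symm j) = ∑ i, h i := Equiv.sum_comp e.symm h
    simp only [hδdef, Finset.sum_add_distrib, ← Finset.sum_div, h1, Finset.sum_const,
      Finset.card_univ, Fintype.card_fin, nsmul_eq_mul]
    have h2 : η * (4 * (k + 1)) = w - ∑ i, h i := div_mul_cancel₀ _ (by positivity)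
    nlinarith
  have hw : 0 < w := by
    have := Finset.sum_nonneg fun i (_ : i ∈ Finset.univ) => hh i
    linarith
  obtain ⟨p, hp⟩ := exists_center k (fun j => v (e.symm j)) δ (fun j => hv _)
    (fun j => (hδpos j).le) S w hS hc hW hw hsum
  set sg : Bool → ℝ := fun b => if b then 1 else -1 with hsg
  set X : (Fin k → Bool) → V := fun σ => ∑ j, (sg (σ j) * δ j) • v (e.symm j) with hX
  set c' : Fin k → ℝ := fun j => c (e.symm j) - ⟪v (e.symm j), p⟫ with hc'
  set Φ : (Fin k → Bool) → ℝ := fun σ => ‖X σ‖ ^ 2 - 2 * ∑ j, sg (σ j) * δ j * c' j with hΦ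
  obtain ⟨σ, hσ⟩ := Finite.exists_max Φ
  have hmem : p + X σ ∈ S := by
    convert hp σ using 3 with j
    congr 1
    cases σ j <;> simp [hsg]
  obtain ⟨i, hi⟩ := hcov _ hmem
  obtain ⟨j, rfl⟩ := e.symm.surjective i
  set σ' := Function.update σ j (!σ j) with hσ'
  have hX' : X σ' = X σ + (-(2 * sg (σ j) * δ j)) • v (e.symm j) := by
    have : X σ' - X σ = (-(2 * sg (σ j) * δ j)) • v (e.symm j) := by
      simp only [hX, ← Finset.sum_sub_distrib]
      rw [Finset.sum_eq_single j (fun b _ hb => by simp [hσ', Function.update_of_ne hb])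
        (fun hj => absurd (Finset.mem_univ j) hj)]
      rw [← sub_smul]
      congr 1
      cases hb : σ j <;> simp [hσ', hsg, hb] <;> ring
    rw [← this]; abel
  have hlin : ∑ b, sg (σ' b) * δ b * c' b
      = ∑ b, sg (σ b) * δ b * c' b - 2 * sg (σ j) * δ j * c' j := by
    have : ∑ b, (sg (σ' b) * δ b * c' b - sg (σ b) * δ b * c' b)
        = -(2 * sg (σ j) * δ j * c' j) := by
      rw [Finset.sum_eq_single j (fun b _ hb => by simp [hσ', Function.update_of_ne hb])
        (fun hj => absurd (Finset.mem_univ j) hj)]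
      cases hb : σ j <;> simp [hσ', hsg, hb] <;> ring
    rw [Finset.sum_sub_distrib] at this
    linarith
  have hle := hσ σ'
  simp only [hΦ] at hle
  rw [hX', hlin, norm_add_sq_real, norm_smul, hv, real_inner_smul_right] at hle
  rw [inner_add_right, real_inner_comm (X σ) (v (e.symm j))] at hi
  have hd := hδpos j
  have hs : sg (σ j) = 1 ∨ sg (σ j) = -1 := by cases σ j <;> simp [hsg]
  have hδv : δ j = h (e.symm j) / 2 + η := rfl
  have hcv : c' j = c (e.symm j) - ⟪v (e.symm j), p⟫ := rfl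
  rw [abs_le] at hi
  rcases hs with hs | hs <;> rw [hs] at hle <;>
    simp only [Real.norm_eq_abs, mul_one, sq_abs] at hle <;>
    nlinarith [hi.1, hi.2]

/-- Replace a compact set inside an open set of reals by finitely many short intervals. -/
lemma exists_grid {C U : Set ℝ} (hC : IsCompact C) (hU : IsOpen U) (hCU : C ⊆ U) :
    ∃ δ : ℝ, 0 < δ ∧ ∃ G : Finset ℤ, (∀ x ∈ C, ⌊x / δ⌋ ∈ G) ∧
      (G.card : ℝ≥0∞) * ENNReal.ofReal δ ≤ volume U := by
  classical
  obtain ⟨δ, hδ, hth⟩ := hC.exists_thickening_subset_open hU hCU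
  have hfl : ∀ x : ℝ, (⌊x / δ⌋ : ℝ) * δ ≤ x ∧ x < (⌊x / δ⌋ + 1 : ℝ) * δ := fun x =>
    ⟨(le_div_iff₀ hδ).1 (Int.floor_le _), (div_lt_iff₀ hδ).1 (Int.lt_floor_add_one _)⟩
  obtain ⟨R, hR⟩ := hC.isBounded.exists_norm_le
  set G := (Finset.Icc ⌊-R / δ⌋ ⌊R / δ⌋).filter fun k => ∃ x ∈ C, ⌊x / δ⌋ = k with hG
  refine ⟨δ, hδ, G, fun x hx => ?_, ?_⟩
  · have := abs_le.1 (hR x hx)
    simp only [hG, Finset.mem_filter, Finset.mem_Icc]
    exact ⟨⟨Int.floor_le_floor (by gcongr; exact this.1), Int.floor_le_floor (by gcongr; exact this.2)⟩,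
      x, hx, rfl⟩
  · set I : ℤ → Set ℝ := fun k => Ioo ((k : ℝ) * δ) ((k + 1 : ℝ) * δ) with hI
    have hdisj : (G : Set ℤ).PairwiseDisjoint I := by
      intro a _ b _ hab
      rw [Function.onFun, Set.disjoint_left]
      intro x hxa hxb
      apply hab
      have ea : ⌊x / δ⌋ = a := Int.floor_eq_iff.2
        ⟨(le_div_iff₀ hδ).2 hxa.1.le, (div_lt_iff₀ hδ).2 hxa.2⟩
      have eb : ⌊x / δ⌋ = b := Int.floor_eq_iff.2
        ⟨(le_div_iff₀ hδ).2 hxb.1.le, (div_lt_iff₀ hδ).2 hxb.2⟩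
      omega
    have hsub : (⋃ k ∈ G, I k) ⊆ U := by
      intro y hy
      simp only [mem_iUnion] at hy
      obtain ⟨k, hk, hy⟩ := hy
      obtain ⟨-, x, hx, rfl⟩ := Finset.mem_filter.1 hk
      refine hth (mem_thickening_iff.2 ⟨x, hx, ?_⟩)
      rw [Real.dist_eq, abs_lt]
      obtain ⟨h1, h2⟩ := hfl x
      constructor <;> nlinarith [hy.1, hy.2]
    refine le_trans (le_of_eq ?_) (measure_mono hsub)
    rw [measure_biUnion_finset hdisj fun k _ => measurableSet_Ioo]
    simp only [hI, Real.volume_Ioo]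
    rw [← nsmul_eq_mul, ← Finset.sum_const]
    exact Finset.sum_congr rfl fun k _ => by ring_nf

/-- Bang's theorem with arbitrary sets in place of intervals. -/
theorem plank_bound_sets [CompleteSpace V] {ι : Type} [Fintype ι] {S : Set V} (hS : IsCompact S)
    (hc : Convex ℝ S) {w : ℝ} (hW : Wide S w) (v : ι → V) (hv : ∀ i, ‖v i‖ = 1)
    (T : ι → Set ℝ) (hcov : ∀ x ∈ S, ∃ i, ⟪v i, x⟫ ∈ T i) :
    ENNReal.ofReal w ≤ ∑ i, volume (T i) := by
  classical
  refine ENNReal.le_of_forall_pos_le_add fun ε hε _ => ?_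
  obtain ⟨ε', hε', hε'sum⟩ := ENNReal.exists_pos_sum_of_countable
    (ε := (ε : ℝ≥0∞)) (by simpa using hε.ne') ι
  choose U hTU hUo hUv using fun i =>
    Set.exists_isOpen_le_add (T i) volume (ε := (ε' i : ℝ≥0∞)) (by simpa using (hε' i).ne')
  obtain ⟨Kf, hKc, hKU, hKS⟩ := hS.finite_compact_cover Finset.univ
    (fun i => (fun x => ⟪v i, x⟫) ⁻¹' U i) (fun i _ => (hUo i).preimage (by fun_prop))
    (fun x hx => by
      obtain ⟨i, hi⟩ := hcov x hx
      exact mem_biUnion (Finset.mem_univ i) (hTU i hi))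
  choose δ hδ G hG hGv using fun i => exists_grid
    ((hKc i).image (f := fun x => ⟪v i, x⟫) (by fun_prop)) (hUo i) (image_subset_iff.2 (hKU i))
  have key := plank_bound hS hc hW (ι := Σ i, {k // k ∈ G i}) (fun a => v a.1) (fun a => hv _)
    (fun a => ((a.2.1 : ℝ) + 1 / 2) * δ a.1) (fun a => δ a.1) (fun a => (hδ _).le) ?_
  · rw [Fintype.sum_sigma] at key
    calc ENNReal.ofReal w
        ≤ ENNReal.ofReal (∑ i, ∑ _k : {k // k ∈ G i}, δ i) := ENNReal.ofReal_le_ofReal key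
      _ = ∑ i, ((G i).card : ℝ≥0∞) * ENNReal.ofReal (δ i) := by
          rw [ENNReal.ofReal_sum_of_nonneg fun i _ => Finset.sum_nonneg fun _ _ => (hδ i).le]
          refine Finset.sum_congr rfl fun i _ => ?_
          rw [Finset.sum_const, Finset.card_univ, Fintype.card_coe, nsmul_eq_mul,
            ENNReal.ofReal_mul (Nat.cast_nonneg _), ENNReal.ofReal_natCast]
      _ ≤ ∑ i, (volume (T i) + ε' i) := Finset.sum_le_sum fun i _ => (hGv i).trans (hUv i)
      _ ≤ (∑ i, volume (T i)) + ε := by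
          rw [Finset.sum_add_distrib]
          gcongr
          rw [tsum_fintype] at hε'sum
          exact hε'sum.le
  · intro x hx
    rw [hKS, mem_iUnion₂] at hx
    obtain ⟨i, -, hi⟩ := hx
    refine ⟨⟨i, _, hG i _ ⟨x, hi, rfl⟩⟩, ?_⟩
    have h1 := (le_div_iff₀ (hδ i)).1 (Int.floor_le (⟪v i, x⟫ / δ i))
    have h2 := (div_lt_iff₀ (hδ i)).1 (Int.lt_floor_add_one (⟪v i, x⟫ / δ i))
    simp only
    rw [abs_le]
    constructor <;> nlinarith

end

end Vale.Agent.P243.Coplanar
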