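import Mathlib
import Vale.Agent.P243.Bundle.Defs

/-!
# P243: coordinates of the plane orthogonal to a horizontal axis
-/

namespace Vale.Agent.P243.Coplanar

open MeasureTheory Module
open Vale.Agent.P243.Bundle (E3 plane projPlane)
open scoped RealInnerProductSpace

noncomputable section

/-- Coordinates along two orthonormal vectors of the plane orthogonal to `u`. -/
lemma exists_coords {u e f : E3} (hu : u ≠ 0) (he : ‖e‖ = 1) (hf : ‖f‖ = 1) (hef : ⟪e, f⟫ = 0)
    (heu : ⟪u, e⟫ = 0) (hfu : ⟪u, f⟫ = 0) :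
    ∃ ψ : ↥(plane u) ≃ᵐ ℝ × ℝ, MeasurePreserving ψ ∧
      ∀ x, ψ (projPlane u x) = (⟪e, x⟫, ⟪f, x⟫) := by
  have he' : e ∈ plane u := Submodule.mem_orthogonal_singleton_iff_inner_right.2 heu
  have hf' : f ∈ plane u := Submodule.mem_orthogonal_singleton_iff_inner_right.2 hfu
  have hfe : ⟪f, e⟫ = 0 := by rw [real_inner_comm]; exact hef
  have : Fact (finrank ℝ E3 = 2 + 1) := ⟨by simp⟩
  have hdim : finrank ℝ ↥(plane u) = 2 := Submodule.finrank_orthogonal_span_singleton hu
  set g : Fin 2 → ↥(plane u) := ![⟨e, he'⟩, ⟨f, hf'⟩] with hg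
  have hon : Orthonormal ℝ g := by
    rw [orthonormal_iff_ite]
    intro i j
    fin_cases i <;> fin_cases j <;>
      simp [hg, Submodule.coe_inner, he, hf, hef, hfe]
  have hspan : Submodule.span ℝ (Set.range g) = ⊤ :=
    hon.linearIndependent.span_eq_top_of_card_eq_finrank (by simp [hdim])
  set ob := OrthonormalBasis.mk hon hspan.ge with hob
  refine ⟨(ob.measurableEquiv.trans (MeasurableEquiv.toLp 2 (Fin 2 → ℝ)).symm).trans
    (MeasurableEquiv.piFinTwo fun _ => ℝ), ?_, fun x => ?_⟩
  · exact (ob.measurePreserving_measurableEquiv.trans (PiLp.volume_preserving_ofLp (Fin 2))).trans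
      (volume_preserving_piFinTwo fun _ => ℝ)
  · have key : ∀ i, ob.repr (projPlane u x) i = ⟪(g i : E3), x⟫ := fun i => by
      rw [ob.repr_apply_apply, hob, OrthonormalBasis.coe_mk, projPlane,
        Submodule.coe_inner, Submodule.coe_orthogonalProjectionOnto_apply,
        ← Submodule.inner_starProjection_left_eq_right, Submodule.starProjection_eq_self_iff.2 (g i).2]
    change ((ob.repr (projPlane u x)) 0, (ob.repr (projPlane u x)) 1) = _
    rw [key, key]
    simp [hg]

end

end Vale.Agent.P243.Coplanar
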