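import Vale.Agent.P243.Coplanar.Bang
import Vale.Agent.P243.Coplanar.Frame

/-!
# P243: the half-area bound for cylinders with axes parallel to one plane

The sections orthogonal to the common normal are covered by strips, so Bang's theorem bounds the
bases below by the tent over the middle section, whereas the shadow along the narrowest direction
of the middle section is at most twice the area of that tent.
-/

namespace Vale.Agent.P243.Coplanar

open MeasureTheory Set Metric Module
open Vale.Agent.P243.Bundle (E3 plane projPlane planeArea Bases IsCylinderCover)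
open scoped RealInnerProductSpace ENNReal

noncomputable section

/-- The Euclidean plane. -/
abbrev E2 : Type := EuclideanSpace ℝ (Fin 2)

variable (b : OrthonormalBasis (Fin 3) ℝ E3)

/-- The horizontal coordinates. -/
def flat (x : E3) : E2 := !₂[⟪b 1, x⟫, ⟪b 2, x⟫]

/-- The horizontal vector with given coordinates. -/
def raise (v : E2) : E3 := v 0 • b 1 + v 1 • b 2

/-- The part of `K` at height `t`. -/
def level (K : Set E3) (t : ℝ) : Set E3 := K ∩ {x | ⟪b 0, x⟫ = t}

/-- The section of `K` at height `t`. -/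
def slice (K : Set E3) (t : ℝ) : Set E2 := flat b '' level b K t

lemma inner_two (v w : E2) : ⟪v, w⟫ = v 0 * w 0 + v 1 * w 1 := by
  simp [PiLp.inner_apply, Fin.sum_univ_two, mul_comm]

lemma inner_raise (v : E2) (x : E3) : ⟪raise b v, x⟫ = ⟪v, flat b x⟫ := by
  rw [raise, inner_add_left, real_inner_smul_left, real_inner_smul_left, inner_two]
  simp [flat]

lemma inner_raise_zero (v : E2) : ⟪b 0, raise b v⟫ = 0 := by
  simp [raise, inner_add_right, real_inner_smul_right, b.orthonormal.2 (show (0 : Fin 3) ≠ 1 by decide),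
    b.orthonormal.2 (show (0 : Fin 3) ≠ 2 by decide)]

lemma flat_raise (v : E2) : flat b (raise b v) = v := by
  ext i
  fin_cases i <;>
    simp [flat, raise, inner_add_right, real_inner_smul_right,
      b.orthonormal.2 (show (1 : Fin 3) ≠ 2 by decide), b.orthonormal.2 (show (2 : Fin 3) ≠ 1 by decide)]

lemma norm_raise (v : E2) : ‖raise b v‖ = ‖v‖ := by
  rw [← sq_eq_sq₀ (norm_nonneg _) (norm_nonneg _), ← real_inner_self_eq_norm_sq, inner_raise,
    flat_raise, real_inner_self_eq_norm_sq]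

/-- A horizontal unit vector has a horizontal unit normal. -/
lemma exists_normal {u : E3} (hu : ‖u‖ = 1) (h0 : ⟪b 0, u⟫ = 0) :
    ∃ v : E2, ‖v‖ = 1 ∧ ⟪u, raise b v⟫ = 0 := by
  refine ⟨!₂[-⟪b 2, u⟫, ⟪b 1, u⟫], ?_, ?_⟩
  · have h := b.sum_inner_mul_inner u u
    rw [Fin.sum_univ_three, real_inner_self_eq_norm_sq, hu, real_inner_comm (b 0) u,
      real_inner_comm (b 1) u, real_inner_comm (b 2) u, h0] at h
    rw [EuclideanSpace.norm_eq, Real.sqrt_eq_one]
    simp [Fin.sum_univ_two]
    linarith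
  · rw [real_inner_comm, inner_raise]
    simp [flat, PiLp.inner_apply, Fin.sum_univ_two]
    ring

lemma continuous_flat : Continuous (flat b) := by
  unfold flat
  fun_prop

lemma isCompact_level {K : Set E3} (hK : IsCompact K) (t : ℝ) : IsCompact (level b K t) :=
  hK.inter_right (isClosed_eq (by fun_prop) continuous_const)

lemma isCompact_slice {K : Set E3} (hK : IsCompact K) (t : ℝ) : IsCompact (slice b K t) :=
  (isCompact_level b hK t).image (continuous_flat b)

lemma comb_mem_level {K : Set E3} (hcv : Convex ℝ K) {s t : ℝ} {x y : E3}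
    (hx : x ∈ level b K s) (hy : y ∈ level b K t) {α β : ℝ} (hα : 0 ≤ α) (hβ : 0 ≤ β)
    (hαβ : α + β = 1) : α • x + β • y ∈ level b K (α * s + β * t) := by
  refine ⟨hcv hx.1 hy.1 hα hβ hαβ, ?_⟩
  have h1 : ⟪b 0, x⟫ = s := hx.2
  have h2 : ⟪b 0, y⟫ = t := hy.2
  show ⟪b 0, α • x + β • y⟫ = _
  rw [inner_add_right, real_inner_smul_right, real_inner_smul_right, h1, h2]

lemma flat_comb (x y : E3) (α β : ℝ) :
    flat b (α • x + β • y) = α • flat b x + β • flat b y := by
  ext i
  fin_cases i <;> simp [flat, inner_add_right, real_inner_smul_right]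

lemma convex_slice {K : Set E3} (hcv : Convex ℝ K) (t : ℝ) : Convex ℝ (slice b K t) := by
  rintro - ⟨x, hx, rfl⟩ - ⟨y, hy, rfl⟩ α β hα hβ hαβ
  refine ⟨α • x + β • y, ?_, flat_comb b x y α β⟩
  have := comb_mem_level b hcv hx hy hα hβ hαβ
  rwa [← add_mul, hαβ, one_mul] at this

lemma wide_slice {K : Set E3} (hcv : Convex ℝ K) {s τ w l t : ℝ} {x₀ : E3}
    (hx₀ : x₀ ∈ level b K s) (hW : Wide (slice b K τ) w) (hl0 : 0 ≤ l) (hl1 : l ≤ 1)
    (ht : t = l * τ + (1 - l) * s) : Wide (slice b K t) (l * w) := by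
  intro n
  obtain ⟨-, ⟨x, hx, rfl⟩, -, ⟨y, hy, rfl⟩, hxy⟩ := hW n
  subst ht
  refine ⟨_, ⟨_, comb_mem_level b hcv hx hx₀ hl0 (sub_nonneg.2 hl1) (by ring), rfl⟩,
    _, ⟨_, comb_mem_level b hcv hy hx₀ hl0 (sub_nonneg.2 hl1) (by ring), rfl⟩, ?_⟩
  rw [flat_comb, flat_comb, add_sub_add_right_eq_sub, ← smul_sub, real_inner_smul_right, mul_assoc]
  exact mul_le_mul_of_nonneg_left hxy hl0

/-- The middle section has a narrowest direction, and its width there bounds all widths below. -/
lemma exists_narrowest {S : Set E2} (hS : IsCompact S) (hne : S.Nonempty) :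
    ∃ (v : E2) (w : ℝ), ‖v‖ = 1 ∧ 0 ≤ w ∧ Wide S w ∧ ∀ x ∈ S, ∀ y ∈ S, ⟪v, x - y⟫ ≤ w := by
  have hP : IsCompact (S ×ˢ S) := hS.prod hS
  set F : E2 → ℝ := fun v => sSup ((fun p : E2 × E2 => ⟪v, p.1 - p.2⟫) '' (S ×ˢ S)) with hF
  have hcont : Continuous F := hP.continuous_sSup (f := fun v (p : E2 × E2) => ⟪v, p.1 - p.2⟫)
    (by fun_prop)
  have hne2 : (sphere (0 : E2) 1).Nonempty := ⟨!₂[(1 : ℝ), 0], by simp [EuclideanSpace.norm_eq]⟩
  obtain ⟨v, hv, hmin⟩ := (isCompact_sphere (0 : E2) 1).exists_isMinOn hne2 hcont.continuousOn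
  rw [mem_sphere_zero_iff_norm] at hv
  have himg : ∀ n : E2, IsCompact ((fun p : E2 × E2 => ⟪n, p.1 - p.2⟫) '' (S ×ˢ S)) :=
    fun n => hP.image (by fun_prop)
  have hle : ∀ x ∈ S, ∀ y ∈ S, ⟪v, x - y⟫ ≤ F v := fun x hx y hy =>
    le_csSup (himg v).bddAbove ⟨(x, y), ⟨hx, hy⟩, rfl⟩
  have hw : 0 ≤ F v := by
    obtain ⟨x, hx⟩ := hne
    simpa using hle x hx x hx
  refine ⟨v, F v, hv, hw, fun n => ?_, hle⟩
  rcases eq_or_ne n 0 with rfl | hn
  · obtain ⟨x, hx⟩ := hne
    exact ⟨x, hx, x, hx, by simp⟩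
  have hn' : 0 < ‖n‖ := norm_pos_iff.2 hn
  have hu : ‖n‖⁻¹ • n ∈ sphere (0 : E2) 1 := by
    simp [norm_smul, hn'.ne']
  obtain ⟨⟨x, y⟩, ⟨hx, hy⟩, hxy⟩ :=
    (himg (‖n‖⁻¹ • n)).sSup_mem ((hne.prod hne).image _)
  refine ⟨x, hx, y, hy, ?_⟩
  have h : F v ≤ ⟪‖n‖⁻¹ • n, x - y⟫ := (hmin hu).trans_eq hxy.symm
  rw [real_inner_smul_left, le_inv_mul_iff₀ hn', mul_comm] at h
  exact h

/-- Fubini for a base, in the coordinates of its plane. -/
lemma area_eq {u : E3} {v : E2} (hu : ‖u‖ = 1) (h0 : ⟪b 0, u⟫ = 0) (hv : ‖v‖ = 1)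
    (huv : ⟪u, raise b v⟫ = 0) {B : Set ↥(plane u)} (hB : MeasurableSet B) :
    ∃ T : ℝ → Set ℝ, Measurable (fun t => volume (T t)) ∧
      planeArea u B = ∫⁻ t, volume (T t) ∧
      ∀ t s, (s ∈ T t ↔ ∃ y ∈ B, ∀ x, projPlane u x = y → (⟪b 0, x⟫, ⟪raise b v, x⟫) = (t, s)) ∧
        ∀ x, projPlane u x ∈ B → ⟪b 0, x⟫ = t → ⟪v, flat b x⟫ ∈ T t := by
  have hu0 : u ≠ 0 := fun h => by simp [h] at hu
  obtain ⟨ψ, hψ, hψx⟩ := exists_coords hu0 (b.orthonormal.1 0)
    ((norm_raise b v).trans hv) (inner_raise_zero b v) (by rw [real_inner_comm]; exact h0) huv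
  set B' : Set (ℝ × ℝ) := ψ.symm ⁻¹' B with hB'
  have hB'm : MeasurableSet B' := ψ.symm.measurable hB
  refine ⟨fun t => Prod.mk t ⁻¹' B', measurable_measure_prodMk_left hB'm, ?_, fun t s => ⟨?_, ?_⟩⟩
  · rw [planeArea, ← (hψ.symm).measure_preimage_equiv B, Measure.volume_eq_prod,
      Measure.prod_apply hB'm]
  · constructor
    · intro h
      refine ⟨_, h, fun x hx => ?_⟩
      rw [← hψx x, hx]
      exact ψ.apply_symm_apply _
    · rintro ⟨y, hy, h⟩
      obtain ⟨x, hx⟩ : ∃ x, projPlane u x = y :=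
        ⟨y, Submodule.orthogonalProjectionOnto_mem_subspace_eq_self y⟩
      show ψ.symm (t, s) ∈ B
      rwa [← h x hx, ← hψx x, ψ.symm_apply_apply, hx]
  · intro x hx ht
    show ψ.symm (t, ⟪v, flat b x⟫) ∈ B
    rwa [← ht, ← inner_raise, ← hψx x, ψ.symm_apply_apply]

/-- The half-area bound for axes orthogonal to `b 0`. -/
theorem half_area_of_frame {K : Set E3} (hK : IsCompact K) (hcv : Convex ℝ K)
    (hint : (interior K).Nonempty) {m : ℕ} {u : Fin m → E3} {B : Bases u}
    (hC : IsCylinderCover K u B) (h0 : ∀ i, ⟪b 0, u i⟫ = 0) :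
    ∃ v : E3, ‖v‖ = 1 ∧ planeArea v (projPlane v '' K) ≤ 2 * ∑ i, planeArea (u i) (B i) := by
  obtain ⟨hu, hB, hcov⟩ := hC
  choose v hv huv using fun i => exists_normal b (hu i) (h0 i)
  choose T hTm hTarea hT using fun i => area_eq b (hu i) (h0 i) (hv i) (huv i) (hB i)
  -- the range of heights
  obtain ⟨x₀, hx₀⟩ := hint
  have hKne : K.Nonempty := ⟨x₀, interior_subset hx₀⟩
  have hh : Continuous fun x => ⟪b 0, x⟫ := by fun_prop
  obtain ⟨xa, hxa, hmin⟩ := hK.exists_isMinOn hKne hh.continuousOn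
  obtain ⟨xb, hxb, hmax⟩ := hK.exists_isMaxOn hKne hh.continuousOn
  set a := ⟪b 0, xa⟫ with ha
  set c := ⟪b 0, xb⟫ with hc
  have hac : a < c := by
    obtain ⟨r, hr, hball⟩ := Metric.isOpen_iff.1 isOpen_interior x₀ hx₀
    have hmem : ∀ s : ℝ, |s| < r → x₀ + s • b 0 ∈ K := fun s hs => interior_subset (hball (by
      simp [mem_ball, dist_eq_norm, norm_smul, hs]))
    have h1 := hmin (hmem (-(r / 2)) (by rw [abs_neg, abs_of_pos (by linarith)]; linarith))
    have h2 := hmax (hmem (r / 2) (by rw [abs_of_pos (by linarith)]; linarith))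
    simp only [mem_ofPred_eq, inner_add_right, real_inner_smul_right,
      b.inner_eq_one] at h1 h2
    linarith
  set τ := (a + c) / 2 with hτ
  set ρ := (c - a) / 2 with hρ
  have hρ0 : 0 < ρ := by rw [hρ]; linarith
  have hla : xa ∈ level b K a := ⟨hxa, rfl⟩
  have hlc : xb ∈ level b K c := ⟨hxb, rfl⟩
  have hca : c - a ≠ 0 := by linarith
  have hlvl : ∀ t ∈ Icc a c, (level b K t).Nonempty := fun t ht => by
    refine ⟨_, by
      have := comb_mem_level b hcv hla hlc (α := (c - t) / (c - a)) (β := (t - a) / (c - a))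
        (div_nonneg (by linarith [ht.2]) (by linarith)) (div_nonneg (by linarith [ht.1]) (by linarith))
        (by rw [← add_div, div_eq_one_iff_eq hca]; ring)
      rwa [show (c - t) / (c - a) * a + (t - a) / (c - a) * c = t by rw [div_mul_eq_mul_div, div_mul_eq_mul_div, ← add_div, div_eq_iff hca]; ring] at this⟩
  have hτI : τ ∈ Icc a c := ⟨by rw [hτ]; linarith, by rw [hτ]; linarith⟩
  obtain ⟨v₀, w, hv₀, hw, hWide, hnarrow⟩ :=
    exists_narrowest (isCompact_slice b hK τ) ((hlvl τ hτI).image _)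
  -- the bases
  set G : ℝ → ℝ≥0∞ := fun t => ∑ i, volume (T i t) with hG
  have hGm : Measurable G := Finset.measurable_sum _ fun i _ => hTm i
  have hsum : ∑ i, planeArea (u i) (B i) = ∫⁻ t, G t := by
    rw [lintegral_finsetSum _ fun i _ => hTm i]
    exact Finset.sum_congr rfl fun i _ => hTarea i
  have hbang : ∀ t w', Wide (slice b K t) w' → ENNReal.ofReal w' ≤ G t := by
    refine fun t w' h => plank_bound_sets (isCompact_slice b hK t) (convex_slice b hcv t) h v hv
      (fun i => T i t) ?_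
    rintro - ⟨x, hx, rfl⟩
    obtain ⟨i, hi⟩ := hcov x hx.1
    exact ⟨i, (hT i t 0).2 x hi hx.2⟩
  have hlow : ENNReal.ofReal (ρ * w) ≤ ∫⁻ t, G t := by
    have hpre : (fun t => t + ρ) ⁻¹' Ioo τ c = Ioo a τ := by
      ext t
      simp only [mem_preimage, mem_Ioo, hρ, hτ]
      constructor <;> rintro ⟨h1, h2⟩ <;> constructor <;> linarith
    calc ENNReal.ofReal (ρ * w)
        = ∫⁻ _t in Ioo a τ, ENNReal.ofReal w := by
          rw [setLIntegral_const, Real.volume_Ioo, ← ENNReal.ofReal_mul hw]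
          congr 1
          rw [hτ, hρ]; ring
      _ ≤ ∫⁻ t in Ioo a τ, (G t + G (t + ρ)) := by
          refine setLIntegral_mono (hGm.add (hGm.comp (measurable_id.add_const ρ))) fun t ht => ?_
          set l := (t - a) / ρ with hl
          have hlρ : l * ρ = t - a := div_mul_cancel₀ _ hρ0.ne'
          have hta : t - a ≤ ρ := by
            have := ht.2
            simp only [hρ, hτ] at *
            linarith
          have hl0 : 0 ≤ l := div_nonneg (by linarith [ht.1]) hρ0.le
          have hl1 : l ≤ 1 := (div_le_one hρ0).2 hta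
          have hA := hbang _ _ (wide_slice b hcv hla hWide hl0 hl1 (t := t) (by
            have : τ - a = ρ := by rw [hτ, hρ]; ring
            linear_combination (norm := ring_nf) -hlρ - l * this))
          have hB := hbang _ _ (wide_slice b hcv hlc hWide (l := 1 - l) (by linarith) (by linarith)
            (t := t + ρ) (by
              have h1 : τ - c = -ρ := by rw [hτ, hρ]; ring
              have h2 : a + ρ = τ := by rw [hτ, hρ]; ring
              linear_combination (norm := ring_nf) -hlρ + l * h1 + h2))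
          calc ENNReal.ofReal w = ENNReal.ofReal (l * w) + ENNReal.ofReal ((1 - l) * w) := by
                rw [← ENNReal.ofReal_add (by positivity) (mul_nonneg (by linarith) hw)]
                congr 1; ring
            _ ≤ G t + G (t + ρ) := add_le_add hA hB
      _ = (∫⁻ t in Ioo a τ, G t) + ∫⁻ t in Ioo τ c, G t := by
          rw [lintegral_add_left hGm, ← hpre,
            (measurePreserving_add_right volume ρ).setLIntegral_comp_preimage measurableSet_Ioo hGm]
      _ = ∫⁻ t in Ioo a τ ∪ Ioo τ c, G t :=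
          (lintegral_union measurableSet_Ioo
            (Set.disjoint_left.2 fun t h1 h2 => by linarith [h1.2, h2.1])).symm
      _ ≤ ∫⁻ t, G t := setLIntegral_le_lintegral _ _
  -- the shadow along the narrowest direction of the middle section
  obtain ⟨z, hz, hzv⟩ : ∃ z : E3, (‖z‖ = 1 ∧ ⟪b 0, z⟫ = 0) ∧ ⟪z, raise b v₀⟫ = 0 := by
    refine ⟨raise b !₂[v₀ 1, -(v₀ 0)], ⟨?_, inner_raise_zero b _⟩, ?_⟩
    · rw [norm_raise, ← hv₀, EuclideanSpace.norm_eq, EuclideanSpace.norm_eq]
      simp [Fin.sum_univ_two, add_comm]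
    · rw [inner_raise, flat_raise]
      simp [PiLp.inner_apply, Fin.sum_univ_two]
      ring
  refine ⟨z, hz.1, ?_⟩
  have hpc : IsCompact (projPlane z '' K) := hK.image (by
    unfold projPlane
    exact (plane z).orthogonalProjectionOnto.continuous)
  obtain ⟨R, hRm, hRarea, hR⟩ := area_eq b hz.1 hz.2 hv₀ hzv hpc.measurableSet
  have hfib : ∀ t s, s ∈ R t → ∃ x ∈ level b K t, ⟪v₀, flat b x⟫ = s := by
    intro t s hs
    obtain ⟨-, ⟨x, hx, rfl⟩, h⟩ := (hR t s).1.1 hs
    obtain ⟨h1, h2⟩ := Prod.ext_iff.1 (h x rfl)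
    exact ⟨x, ⟨hx, h1⟩, by rw [← inner_raise]; exact h2⟩
  have hpair : ∀ t, volume (R t) + volume (R (2 * τ - t)) ≤
      (Icc a c).indicator (fun _ => ENNReal.ofReal (2 * w)) t := by
    intro t
    by_cases ht : t ∈ Icc a c
    · rw [indicator_of_mem ht]
      have ht' : 2 * τ - t ∈ Icc a c := by
        have := ht.1; have := ht.2
        simp only [hτ, mem_Icc]; constructor <;> linarith
      have ext : ∀ s, (level b K s).Nonempty → ∃ p ∈ level b K s, ∃ q ∈ level b K s,
          R s ⊆ Icc ⟪v₀, flat b p⟫ ⟪v₀, flat b q⟫ := by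
        intro s hs
        have hf : Continuous fun x => ⟪v₀, flat b x⟫ := by
          have := continuous_flat b
          fun_prop
        obtain ⟨p, hp, hpmin⟩ := (isCompact_level b hK s).exists_isMinOn hs hf.continuousOn
        obtain ⟨q, hq, hqmax⟩ := (isCompact_level b hK s).exists_isMaxOn hs hf.continuousOn
        refine ⟨p, hp, q, hq, fun r hr => ?_⟩
        obtain ⟨x, hx, rfl⟩ := hfib s r hr
        exact ⟨hpmin hx, hqmax hx⟩
      obtain ⟨p, hp, q, hq, hsub⟩ := ext t (hlvl t ht)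
      obtain ⟨p', hp', q', hq', hsub'⟩ := ext _ (hlvl _ ht')
      have mid : ∀ x ∈ level b K t, ∀ y ∈ level b K (2 * τ - t),
          (1 / 2 : ℝ) • flat b x + (1 / 2 : ℝ) • flat b y ∈ slice b K τ := fun x hx y hy => by
        refine ⟨(1 / 2 : ℝ) • x + (1 / 2 : ℝ) • y, ?_, flat_comb b _ _ _ _⟩
        have := comb_mem_level b hcv hx hy (α := 1 / 2) (β := 1 / 2) (by norm_num) (by norm_num)
          (by norm_num)
        rwa [show (1 / 2 : ℝ) * t + 1 / 2 * (2 * τ - t) = τ by ring] at this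
      have hle := hnarrow _ (mid q hq q' hq') _ (mid p hp p' hp')
      simp only [inner_sub_right, inner_add_right, real_inner_smul_right] at hle
      calc volume (R t) + volume (R (2 * τ - t))
          ≤ ENNReal.ofReal (max (⟪v₀, flat b q⟫ - ⟪v₀, flat b p⟫) 0)
            + ENNReal.ofReal (max (⟪v₀, flat b q'⟫ - ⟪v₀, flat b p'⟫) 0) := by
            refine add_le_add ((measure_mono hsub).trans ?_) ((measure_mono hsub').trans ?_) <;>
              rw [Real.volume_Icc] <;> exact ENNReal.ofReal_le_ofReal (le_max_left _ _)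
        _ ≤ ENNReal.ofReal (2 * w) := by
            rw [← ENNReal.ofReal_add (le_max_right _ _) (le_max_right _ _)]
            refine ENNReal.ofReal_le_ofReal ?_
            have hb : ∀ s, ∀ x ∈ level b K s, ∀ y ∈ level b K s,
                s = t → ⟪v₀, flat b x⟫ - ⟪v₀, flat b y⟫ ≤ 2 * w := fun s x hx y hy hs => by
              subst hs
              have := hnarrow _ (mid x hx q' hq') _ (mid y hy q' hq')
              simp only [inner_sub_right, inner_add_right, real_inner_smul_right] at this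
              linarith
            have h3 := hb t q hq p hp rfl
            have h4 := hnarrow _ (mid q hq q' hq') _ (mid q hq p' hp')
            simp only [inner_sub_right, inner_add_right, real_inner_smul_right] at h4
            rcases le_total (⟪v₀, flat b q⟫ - ⟪v₀, flat b p⟫) 0 with h | h <;>
              rcases le_total (⟪v₀, flat b q'⟫ - ⟪v₀, flat b p'⟫) 0 with h' | h' <;>
              simp [h, h'] <;> linarith
    · rw [indicator_of_notMem ht]
      have hempty : ∀ s ∉ Icc a c, R s = ∅ := fun s hs => eq_empty_of_forall_notMem fun r hr => by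
        obtain ⟨x, ⟨hxK, hxs⟩, -⟩ := hfib s r hr
        exact hs (hxs ▸ ⟨hmin hxK, hmax hxK⟩)
      have ht' : 2 * τ - t ∉ Icc a c := fun h => ht (by
        have := h.1; have := h.2
        simp only [hτ, mem_Icc] at *; constructor <;> linarith)
      simp [hempty t ht, hempty _ ht']
  have hup : planeArea z (projPlane z '' K) ≤ ENNReal.ofReal (2 * (ρ * w)) := by
    have h2 : 2 * ∫⁻ t, volume (R t) ≤ 2 * ENNReal.ofReal (2 * (ρ * w)) := by
      calc 2 * ∫⁻ t, volume (R t)
          = ∫⁻ t, (volume (R t) + volume (R (2 * τ - t))) := by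
            rw [lintegral_add_left hRm,
              (Measure.measurePreserving_sub_left volume (2 * τ)).lintegral_comp hRm, two_mul]
        _ ≤ ∫⁻ t, (Icc a c).indicator (fun _ => ENNReal.ofReal (2 * w)) t := lintegral_mono hpair
        _ = 2 * ENNReal.ofReal (2 * (ρ * w)) := by
            rw [lintegral_indicator measurableSet_Icc, setLIntegral_const, Real.volume_Icc,
              ← ENNReal.ofReal_mul (by positivity), ← ENNReal.ofReal_ofNat 2,
              ← ENNReal.ofReal_mul (by norm_num)]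
            congr 1
            rw [hρ]; ring
    rw [hRarea]
    exact (ENNReal.mul_le_mul_iff_right two_ne_zero ENNReal.ofNat_ne_top).1 h2
  refine hup.trans ?_
  rw [hsum, ENNReal.ofReal_mul (by norm_num), ENNReal.ofReal_ofNat]
  gcongr

/-- The half-area bound when all axes are parallel to one plane. -/
theorem half_area {K : Set E3} (hK : IsCompact K) (hcv : Convex ℝ K)
    (hint : (interior K).Nonempty) {m : ℕ} {u : Fin m → E3} {B : Bases u}
    (hC : IsCylinderCover K u B) {e : E3} (he : e ≠ 0) (h0 : ∀ i, ⟪e, u i⟫ = 0) :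
    ∃ v : E3, ‖v‖ = 1 ∧ planeArea v (projPlane v '' K) ≤ 2 * ∑ i, planeArea (u i) (B i) := by
  have hcard : finrank ℝ E3 = Fintype.card (Fin 3) := by simp
  have hon : Orthonormal ℝ (({0} : Set (Fin 3)).domRestrict fun _ => ‖e‖⁻¹ • e) := by
    refine ⟨fun i => ?_, fun i j hij => absurd (Subtype.ext ?_) hij⟩
    · simp [norm_smul, (norm_pos_iff.2 he).ne']
    · rw [mem_singleton_iff.1 i.2, mem_singleton_iff.1 j.2]
  obtain ⟨b, hb⟩ := hon.exists_orthonormalBasis_extension_of_card_eq hcard
  refine half_area_of_frame b hK hcv hint hC fun i => ?_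
  rw [hb 0 rfl, real_inner_smul_left, h0, mul_zero]

end

end Vale.Agent.P243.Coplanar
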